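import Vale.Agent.P073.Converge

/-!
P073: triangular Sobolev homeomorphisms of the cube are diffeomorphically approximable.
-/

open MeasureTheory Filter Topology Set
open scoped ContDiff

namespace Vale.Agent.Results.P073.TriangularClass

open Vale.Agent.P073

theorem result : ∀ (n : ℕ) (p : ℝ) (f : Sp n → Sp n) (g : Fin n → Fin n → Sp n → ℝ),
    1 ≤ p → TriangularHomeo f → InW p f g →
    ∃ F : ℕ → Sp n → Sp n,
      (∀ k, ContDiffOn ℝ ∞ (F k) (cube n) ∧ BijOn (F k) (cube n) (cube n) ∧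
        (∃ G : Sp n → Sp n, ContDiffOn ℝ ∞ G (cube n) ∧ MapsTo G (cube n) (cube n) ∧
          InvOn G (F k) (cube n) (cube n)) ∧
        (∀ i, MemLp (fun x => F k x i) (ENNReal.ofReal p) (volume.restrict (cube n))) ∧
        ∀ i j, MemLp (fun x => fderiv ℝ (F k) x (Pi.single j 1) i) (ENNReal.ofReal p)
          (volume.restrict (cube n))) ∧
      (∀ i, Tendsto (fun k => ∫ x in cube n, |F k x i - f x i| ^ p) atTop (𝓝 0)) ∧
      ∀ i j, Tendsto (fun k => ∫ x in cube n, |fderiv ℝ (F k) x (Pi.single j 1) i - g i j x| ^ p)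
        atTop (𝓝 0) :=
  fun _ _ _ _ hp hf hW => exists_diffeo_approx hf hp hW

end Vale.Agent.Results.P073.TriangularClass
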